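import Vale.Agent.P151.RG.Top
import Vale.Agent.P151.FULL.Seam

/-!
# P151: the seam of the full answer from the percolation side (`PercFlat`) and from the relative
Gromov theorem (`R3Stmt`)
-/

set_option autoImplicit false

open Filter Topology Pointwise MeasureTheory unitInterval

namespace Vale.Agent.P151.RG

open Vale.Agent.P151 Vale.Agent.P151.GB Vale.Agent.P151.H648 Vale.Agent.P151.R3.H860
  Vale.Agent.P151.FULL Vale.Agent.P151.R2.H279

/-- **The percolation side.** Percolation at `p_c` in the remaining growth window gives windows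
(symmetric sets of automorphisms which grow at most quadratically) at all scales. -/
def PercFlat : Prop :=
  ∀ (V : Type) (_ : DecidableEq V) (_ : Infinite V) (G : SimpleGraph V) (_ : G.LocallyFinite)
    (hG : G.Connected) (R : Finset V), (∀ x : V, ∃ g : G ≃g G, g x ∈ R) → IsQuasiTransitive G →
    IsAmenable G → InWindow G → 0 < pc G → pc G < 1 →
    ∀ θ : ℝ, 0 < θ → (∀ (n : ℕ) (x : V), θ ≤ phiB G n x (pc G)) → ∃ o : V, FlatR (grLen hG o)

theorem cgeo_grLen {V : Type} {G : SimpleGraph V} (hG : G.Connected)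
    (hqt : IsQuasiTransitive G) (o : V) : CGeo (grLen hG o) := by
  obtain ⟨R, hR⟩ := exists_close hG hqt o
  refine ⟨2 * R + 1, ?_⟩
  have key : ∀ (n : ℕ) (x : V), G.dist o x = n → ∀ φ : G ≃g G, G.dist x (φ o) ≤ R →
      φ ∈ {g : G ≃g G | (grLen hG o).ℓ g ≤ 2 * R + 1} ^ (n + 1) := by
    intro n
    induction n with
    | zero =>
      intro x hx φ hφ
      have hx : o = x := (hG.dist_eq_zero_iff).1 hx
      rw [zero_add, pow_one]
      show G.dist o (φ o) ≤ 2 * R + 1
      rw [← hx] at hφ
      omega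
    | succ n ih =>
      intro x hx φ hφ
      obtain ⟨w, hw⟩ := (hG x o).exists_walk_length_eq_dist
      rw [SimpleGraph.dist_comm, hx] at hw
      obtain ⟨z, hadj, hz⟩ : ∃ z, G.Adj x z ∧ G.dist o z = n := by
        cases w with
        | nil => simp at hw
        | cons h p =>
          rename_i z
          refine ⟨z, h, ?_⟩
          have h1 := SimpleGraph.dist_le p
          rw [SimpleGraph.Walk.length_cons] at hw
          have h2 := hG.dist_triangle (u := o) (v := z) (w := x)
          have h3 : G.dist z x ≤ 1 := by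
            have := SimpleGraph.dist_le h.symm.toWalk
            simpa using this
          rw [SimpleGraph.dist_comm] at h1
          omega
      obtain ⟨ψ, hψ⟩ := hR z
      have h1 := ih z hz ψ hψ
      have h2 : ψ⁻¹ * φ ∈ {g : G ≃g G | (grLen hG o).ℓ g ≤ 2 * R + 1} := by
        show G.dist o (ψ⁻¹ (φ o)) ≤ 2 * R + 1
        have h3 := dist_map hG ψ o (ψ⁻¹ (φ o))
        have e : ψ (ψ⁻¹ (φ o)) = φ o := ψ.apply_symm_apply _
        rw [e] at h3
        rw [← h3]
        have h4 := hG.dist_triangle (u := ψ o) (v := z) (w := φ o)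
        have h5 := hG.dist_triangle (u := z) (v := x) (w := φ o)
        have h6 : G.dist z x ≤ 1 := by
          have := SimpleGraph.dist_le hadj.symm.toWalk
          simpa using this
        rw [SimpleGraph.dist_comm] at hψ
        omega
      rw [pow_succ]
      exact ⟨ψ, h1, _, h2, mul_inv_cancel_left ψ φ⟩
  intro g
  exact key _ (g o) rfl g (by rw [SimpleGraph.dist_self]; exact Nat.zero_le _)

theorem infinite_quot {V : Type} [Infinite V] {G : SimpleGraph V} [G.LocallyFinite]
    (hG : G.Connected) (hqt : IsQuasiTransitive G) (o : V) :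
    Infinite ((G ≃g G) ⧸ (grLen hG o).K) := by
  rw [← not_finite_iff_infinite]
  intro hfin
  obtain ⟨R, hR⟩ := exists_close hG hqt o
  have h1 : (Set.univ : Set V) ⊆
      ⋃ x : (G ≃g G) ⧸ (grLen hG o).K, {y | G.dist (orbMap hG o x) y ≤ R} := by
    intro y _
    obtain ⟨φ, hφ⟩ := hR y
    rw [Set.mem_iUnion]
    refine ⟨(φ : (G ≃g G) ⧸ (grLen hG o).K), ?_⟩
    show G.dist (orbMap hG o _) y ≤ R
    rw [orbMap_mk, SimpleGraph.dist_comm]
    exact hφ
  have h2 : (Set.univ : Set V).Finite :=
    (Set.finite_iUnion fun x => ball_finite hG (orbMap hG o x) R).subset h1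
  exact Set.infinite_univ h2

theorem se_of_window {V : Type} [DecidableEq V] {G : SimpleGraph V} [G.LocallyFinite]
    (hG : G.Connected) (h : InWindow G) (o : V) : SE (grLen hG o) := by
  obtain ⟨A, hA⟩ := h.2 o
  intro C
  -- `exp (A (log n)^2) < 2 ^ (n / (C + 1))` for large `n`
  have hlim : Tendsto (fun n : ℕ => A * Real.log n ^ 2 - Real.log 2 * ((n : ℝ) / (C + 1) - 1))
      atTop atBot := by
    have e1 : Tendsto (fun x : ℝ => Real.log x ^ 2 / x) atTop (𝓝 0) := by
      have := (isLittleO_log_rpow_atTop (show (0 : ℝ) < 1 / 4 by norm_num)).tendsto_div_nhds_zero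
      have h2 : Tendsto (fun x : ℝ => (Real.log x / x ^ (1 / 4 : ℝ)) ^ 2 * (x ^ (-(1 / 2) : ℝ)))
          atTop (𝓝 (0 ^ 2 * 0)) :=
        (this.pow 2).mul (tendsto_rpow_neg_atTop (by norm_num))
      rw [zero_pow two_ne_zero, zero_mul] at h2
      refine h2.congr' ?_
      filter_upwards [eventually_gt_atTop 0] with x hx
      rw [div_pow, ← Real.rpow_natCast (x ^ (1 / 4 : ℝ)) 2, ← Real.rpow_mul hx.le, div_mul_eq_mul_div,
        div_eq_div_iff (by positivity) hx.ne']
      have : x ^ (-(1 / 2) : ℝ) * x = x ^ (1 / 4 * ((2 : ℕ) : ℝ)) := by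
        nth_rw 2 [← Real.rpow_one x]
        rw [← Real.rpow_add hx]
        norm_num
      rw [mul_assoc, this]
    have e2 : Tendsto (fun n : ℕ => A * (Real.log n ^ 2 / n)) atTop (𝓝 (A * 0)) :=
      (e1.comp tendsto_natCast_atTop_atTop).const_mul A
    rw [mul_zero] at e2
    have hpos : 0 < Real.log 2 / (C + 1) := by
      have := Real.log_pos one_lt_two
      positivity
    have e3 : Tendsto (fun n : ℕ => A * (Real.log n ^ 2 / n) - Real.log 2 / (C + 1)) atTop
        (𝓝 (0 - Real.log 2 / (C + 1))) := e2.sub_const _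
    have e4 : Tendsto (fun n : ℕ => (A * (Real.log n ^ 2 / n) - Real.log 2 / (C + 1)) * n) atTop
        atBot := by
      refine Tendsto.neg_mul_atTop (by linarith) e3 tendsto_natCast_atTop_atTop
    have e5 : Tendsto (fun n : ℕ => (A * (Real.log n ^ 2 / n) - Real.log 2 / (C + 1)) * n +
        Real.log 2) atTop atBot := tendsto_atBot_add_const_right _ _ e4
    refine e5.congr' ?_
    filter_upwards [eventually_gt_atTop 0] with n hn
    have hn' : (0 : ℝ) < n := by exact_mod_cast hn
    field_simp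
    ring
  obtain ⟨N, hN⟩ := eventually_atTop.1 (hlim.eventually (eventually_lt_atBot 0))
  obtain ⟨n, hn, h1⟩ := hA N
  have h2 := hN n hn
  refine ⟨n / (C + 1), ?_⟩
  have h3 : C * (n / (C + 1)) ≤ n := by
    calc C * (n / (C + 1)) ≤ (C + 1) * (n / (C + 1)) := Nat.mul_le_mul_right _ (Nat.le_succ C)
      _ ≤ n := Nat.mul_div_le n (C + 1)
  have h4 : ((grLen hG o).ball (C * (n / (C + 1)))).ncard ≤ (ballF G o n).card := by
    rw [← Set.ncard_image_of_injective _ (orbMap_injective hG o), ← Set.ncard_coe_finset,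
      ← ball_eq hG]
    refine Set.ncard_le_ncard ((orbMap_ball hG o _).trans ?_) (ball_finite hG o n)
    intro y hy
    exact le_trans hy h3
  have h5 : ((ballF G o n).card : ℝ) < 2 ^ (n / (C + 1)) := by
    refine lt_of_le_of_lt h1 ?_
    have h6 : (n : ℝ) / (C + 1) - 1 < ((n / (C + 1) : ℕ) : ℝ) := by
      have h7 := Nat.lt_mul_div_succ n (Nat.succ_pos C)
      have h8 : (n : ℝ) < (C + 1) * (((n / (C + 1) : ℕ) : ℝ) + 1) := by
        exact_mod_cast h7
      have hC : (0 : ℝ) < (C : ℝ) + 1 := by positivity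
      rw [sub_lt_iff_lt_add, div_lt_iff₀ hC]
      linarith
    have h9 : (2 : ℝ) ^ (n / (C + 1)) = Real.exp (Real.log 2 * ((n / (C + 1) : ℕ) : ℝ)) := by
      rw [mul_comm, Real.exp_nat_mul, Real.exp_log two_pos]
    rw [h9]
    apply Real.exp_lt_exp.2
    have h10 := mul_lt_mul_of_pos_left h6 (Real.log_pos one_lt_two)
    linarith
  have h6 : (((grLen hG o).ball (C * (n / (C + 1)))).ncard : ℝ) < 2 ^ (n / (C + 1)) :=
    lt_of_le_of_lt (by exact_mod_cast h4) h5
  exact_mod_cast h6

/-- **The seam.** -/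
theorem seam_of (hPerc : PercFlat) (hR3 : R3Stmt) : Seam := by
  intro V _ _ G _ hG R hR hqt ham hw hpc0 hpc1 θ hθ hθn
  obtain ⟨o, hF⟩ := hPerc V inferInstance inferInstance G inferInstance hG R hR hqt ham hw hpc0
    hpc1 θ hθ hθn
  have hrk : RkD (grLen hG o) := hR3 (G ≃g G) (grLen hG o) (grLen_proper hG o)
    (se_of_window hG hw o) (grLen_cg hG hqt o) (cgeo_grLen hG hqt o) (infinite_quot hG hqt o) hF
  have hcl := graph_of_rkD hG hqt o hrk
  have hp : ((⟨pc G, hpc0.le, hpc1.le⟩ : I) : ℝ) = pc G := rfl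
  have hz : ProbabilityTheory.setBernoulli G.edgeSet (⟨pc G, hpc0.le, hpc1.le⟩ : I)
      (hasInfiniteCluster V) = 0 := by
    refine no_perc_class V G hG hpc1 ?_ _ hp
    rcases hcl with h | h
    · exact Or.inl h
    · exact Or.inr (Or.inl h)
  obtain ⟨x⟩ := hG.nonempty
  have h := tendsto_phiB G hG ⟨pc G, hpc0.le, hpc1.le⟩ x
  have hz2 : (ProbabilityTheory.setBernoulli G.edgeSet (⟨pc G, hpc0.le, hpc1.le⟩ : I)).real
      (InfC x) = 0 := by
    rw [measureReal_def, measure_mono_null (infC_subset x) hz]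
    rfl
  rw [hz2] at h
  have h2 : θ ≤ 0 := ge_of_tendsto h (Eventually.of_forall fun n => hθn n x)
  linarith

end Vale.Agent.P151.RG
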