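import Vale.Agent.P151.R3.H860.EGraph
import Vale.Agent.P151.R3.H17.Scl

/-!
# P151, route R3: the final assembly of the relative Gromov theorem.  Literal statements.
-/

set_option autoImplicit false

open Filter Topology Pointwise

namespace Vale.Agent.P151.RG

open Vale.Agent.P151.GB Vale.Agent.P151.R3.H860 Vale.Agent.P151.R3.V Vale.Agent.P151.R3.H17

/-- Windows at all scales with one constant, and with the inradius condition. -/
def FlatR {Γ : Type} [Group Γ] (L : Len Γ) : Prop :=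
  ∃ C c0 : ℕ, ∀ w M : ℕ, ∃ (P : Set Γ) (w' : ℕ), w ≤ w' ∧ Win L P w' M C ∧
    ∀ m, 1 ≤ m → m ≤ M → ∃ g, L.ℓ g ≤ (m + 1) ^ c0 * w' ∧ g ∉ P ^ m

/-- The length is comparable with a word length (true for the length of a quasi-transitive
graph). -/
def CGeo {Γ : Type} [Group Γ] (L : Len Γ) : Prop :=
  ∃ R : ℕ, ∀ g : Γ, g ∈ {x : Γ | L.ℓ x ≤ R} ^ (L.ℓ g + 1)

/-- **R3**: the relative Gromov theorem. -/
def R3Stmt : Prop := ∀ (Γ : Type) [Group Γ] (L : Len Γ), L.Proper → SE L → L.CG → CGeo L →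
  Infinite (Γ ⧸ L.K) → FlatR L → RkD L

/-- `D` is the word length of `P` (`0` exactly on `K`). -/
structure WLen {Γ : Type} [Group Γ] (L : Len Γ) (P : Set Γ) (D : Len Γ) : Prop where
  ker : ∀ g, D.ℓ g = 0 ↔ L.ℓ g = 0
  pow : ∀ m, 1 ≤ m → ∀ g, D.ℓ g ≤ m ↔ g ∈ P ^ m

/-- A sequence of windows. -/
structure Seq {Γ : Type} [Group Γ] (L : Len Γ) (C c0 : ℕ) (P : ℕ → Set Γ) (w : ℕ → ℕ)
    (D : ℕ → Len Γ) : Prop where
  win : ∀ n, Win L (P n) (w n) n C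
  large : ∀ n, n ≤ w n
  reg : ∀ n m, 1 ≤ m → m ≤ n → ∃ g, L.ℓ g ≤ (m + 1) ^ c0 * w n ∧ g ∉ P n ^ m
  len : ∀ n, WLen L (P n) (D n)

/-- **(WORD)** word lengths exist. -/
def WordStmt : Prop := ∀ (Γ : Type) [Group Γ] (L : Len Γ), L.Proper → L.CG → FlatR L →
  ∃ (C c0 : ℕ) (P : ℕ → Set Γ) (w : ℕ → ℕ) (D : ℕ → Len Γ), Seq L C c0 P w D

/-- Bounded sequences. -/
def bdd {Γ : Type} [Group Γ] (U : Ultrafilter ℕ) (D : ℕ → Len Γ) : Subgroup (ℕ → Γ) where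
  carrier := {g | ∃ m : ℕ, ∀ᶠ i in (U : Filter ℕ), (D i).ℓ (g i) ≤ m}
  one_mem' := ⟨0, Eventually.of_forall fun i => by
    rw [Pi.one_apply, (D i).one]⟩
  mul_mem' := by
    rintro a b ⟨m, hm⟩ ⟨n, hn⟩
    refine ⟨m + n, ?_⟩
    filter_upwards [hm, hn] with i h1 h2
    exact ((D i).mul (a i) (b i)).trans (add_le_add h1 h2)
  inv_mem' := by
    rintro a ⟨m, hm⟩
    refine ⟨m, ?_⟩
    filter_upwards [hm] with i h1
    rw [Pi.inv_apply, (D i).inv]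
    exact h1

/-- **(LIM)** blocks A, O, H: the limit of a sequence of windows. -/
def LimStmt : Prop := ∀ (Γ : Type) [Group Γ] (L : Len Γ), L.Proper → SE L → L.CG →
  Infinite (Γ ⧸ L.K) → ∀ (C c0 : ℕ) (P : ℕ → Set Γ) (w : ℕ → ℕ) (D : ℕ → Len Γ),
  Seq L C c0 P w D → ∀ U : Ultrafilter ℕ, (U : Filter ℕ) ≤ atTop →
  ∃ l : NLen (bdd U D),
    (∀ (g : bdd U D) (m : ℕ), l.ℓ g ≤ m ↔ ∀ᶠ n in (U : Filter ℕ), (D n).ℓ ((g : ℕ → Γ) n) ≤ m) ∧
    ∃ (W : Type) (_ : NormedAddCommGroup W) (_ : InnerProductSpace ℝ W)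
      (_ : FiniteDimensional ℝ W) (_ : Nontrivial W) (π : bdd U D →* (W ≃ₗᵢ[ℝ] W))
      (c : bdd U D → W) (B : ℝ), Data1 l W π c B ∧ ∀ g, l.ℓ g = 0 → c g = 0

/-- **(ISO)** isometric actions on the line or the plane, with stabilisers. -/
def IsoStmt : Prop := ∀ (Γ : Type) [Group Γ] (L : Len Γ), L.Proper → L.CG →
  ∀ (W : Type) [NormedAddCommGroup W] [InnerProductSpace ℝ W] [FiniteDimensional ℝ W]
  (π : Γ →* (W ≃ₗᵢ[ℝ] W)) (c : Γ → W), (∀ g h, c (g * h) = c g + π g (c h)) →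
  (∀ g, L.ℓ g = 0 → c g = 0) → (∀ (m : ℕ) (u : Fin m → W), Orthonormal ℝ u → m ≤ 2) →
  (∃ H : Subgroup Γ, Dense L H ∧ ∃ f : H → ℝ, (∀ g h, f (g * h) = f g + f h) ∧
    (∀ g : H, L.ℓ g = 0 → f g = 0) ∧ ∃ g, f g ≠ 0) ∨
  ∃ H : Subgroup Γ, Dense L H ∧ ∀ g ∈ H, c g = 0 ∧ π g = 1

/-- **(GEN)** finitely many products of squares generate a coarsely dense subgroup. -/
def GenStmt : Prop := ∀ (Γ : Type) [Group Γ] (L : Len Γ), L.Proper → L.CG →
  ∀ H : Subgroup Γ, Dense L H → ∃ S : Finset Γ,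
    (∀ s ∈ S, s ∈ Subgroup.closure {x | ∃ h ∈ H, x = h ^ 2}) ∧
    Dense L (Subgroup.closure (S : Set Γ))

/-- Conjugates of `s` are short on the windows. -/
def Short {Γ : Type} [Group Γ] (U : Ultrafilter ℕ) (D : ℕ → Len Γ) (s : Γ) : Prop :=
  ∃ D0 : ℕ, ∀ R : ℕ, ∀ᶠ n in (U : Filter ℕ), ∀ x : Γ, (D n).ℓ x ≤ R →
    (D n).ℓ (x⁻¹ * s * x) ≤ D0

/-- **(LG)** Lemma G. -/
def LGStmt : Prop := ∀ (Γ : Type) [Group Γ] (L : Len Γ), L.Proper → L.CG → CGeo L →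
  Infinite (Γ ⧸ L.K) → ∀ (C c0 : ℕ) (P : ℕ → Set Γ) (w : ℕ → ℕ) (D : ℕ → Len Γ),
  Seq L C c0 P w D → ∀ U : Ultrafilter ℕ, (U : Filter ℕ) ≤ atTop → ∀ S : Finset Γ,
  (∀ s ∈ S, Short U D s) → Dense L (Subgroup.closure (S : Set Γ)) →
  ∃ f : Subgroup.closure (S : Set Γ) → ℝ, (∀ g h, f (g * h) = f g + f h) ∧
    (∀ g : Subgroup.closure (S : Set Γ), L.ℓ (g : Γ) = 0 → f g = 0) ∧ ∃ g, f g ≠ 0

/-- **(E)** block E: a homomorphism on a coarsely dense subgroup finishes. -/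
def EStmt : Prop := ∀ (Γ : Type) [Group Γ] (L : Len Γ), L.Proper → SE L → L.CG → Flat L →
  ∀ H : Subgroup Γ, Dense L H → ∀ f : H → ℝ, (∀ g h, f (g * h) = f g + f h) →
    (∀ g : H, L.ℓ g = 0 → f g = 0) → (∃ g, f g ≠ 0) → RkD L

section

variable {Γ : Type} [Group Γ] {U : Ultrafilter ℕ} {D : ℕ → Len Γ}

theorem Short.inv {s : Γ} (h : Short U D s) : Short U D s⁻¹ := by
  obtain ⟨D0, h⟩ := h
  refine ⟨D0, fun R => ?_⟩
  filter_upwards [h R] with n hn x hx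
  have h1 := hn x hx
  rw [← (D n).inv]
  have e : (x⁻¹ * s⁻¹ * x)⁻¹ = x⁻¹ * s * x := by group
  rw [e]
  exact h1

theorem Short.mul {s t : Γ} (h : Short U D s) (h' : Short U D t) : Short U D (s * t) := by
  obtain ⟨D0, h⟩ := h
  obtain ⟨D1, h'⟩ := h'
  refine ⟨D0 + D1, fun R => ?_⟩
  filter_upwards [h R, h' R] with n hn hn' x hx
  have e : x⁻¹ * (s * t) * x = (x⁻¹ * s * x) * (x⁻¹ * t * x) := by group
  rw [e]
  exact ((D n).mul _ _).trans (add_le_add (hn x hx) (hn' x hx))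

theorem Short.one : Short U D (1 : Γ) := by
  refine ⟨0, fun R => Eventually.of_forall fun n x _ => ?_⟩
  have e : x⁻¹ * 1 * x = 1 := by group
  rw [e, (D n).one]

theorem Short.closure {S : Set Γ} (h : ∀ s ∈ S, Short U D s) :
    ∀ s ∈ Subgroup.closure S, Short U D s := by
  intro s hs
  induction hs using Subgroup.closure_induction with
  | mem x hx => exact h x hx
  | one => exact Short.one
  | mul x y _ _ hx hy => exact hx.mul hy
  | inv x _ hx => exact hx.inv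

end

/-- Constants are bounded. -/
theorem cst_len {Γ : Type} [Group Γ] {L : Len Γ} {C c0 : ℕ} {P : ℕ → Set Γ} {w : ℕ → ℕ}
    {D : ℕ → Len Γ} (hS : Seq L C c0 P w D) {U : Ultrafilter ℕ} (hU : (U : Filter ℕ) ≤ atTop)
    (g : Γ) : ∀ᶠ n in (U : Filter ℕ), (D n).ℓ g ≤ 1 := by
  filter_upwards [hU (eventually_ge_atTop (L.ℓ g))] with n hn
  rw [(hS.len n).pow 1 le_rfl, pow_one]
  exact (hS.win n).ball g (le_trans hn (hS.large n))

/-- The constant sequences. -/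
def cst {Γ : Type} [Group Γ] {L : Len Γ} {C c0 : ℕ} {P : ℕ → Set Γ} {w : ℕ → ℕ}
    {D : ℕ → Len Γ} (hS : Seq L C c0 P w D) {U : Ultrafilter ℕ} (hU : (U : Filter ℕ) ≤ atTop) :
    Γ →* bdd U D where
  toFun g := ⟨fun _ => g, 1, cst_len hS hU g⟩
  map_one' := rfl
  map_mul' _ _ := rfl

/-- **The assembly of R3.** -/
theorem r3_of (hWord : WordStmt) (hLim : LimStmt) (hIso : IsoStmt) (hGen : GenStmt)
    (hLG : LGStmt) (hE : EStmt) : R3Stmt := by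
  intro Γ _ L hp hse hc hgeo hinf hF
  have hFlat : Flat L := by
    obtain ⟨C, c0, h⟩ := hF
    refine ⟨C, fun w M => ?_⟩
    obtain ⟨P, w', hw, hP, -⟩ := h w M
    exact ⟨P, hP.inv, hP.mul_K, hP.fin, fun g hg => hP.ball g (hg.trans hw), hP.grow⟩
  obtain ⟨C, c0, P, w, D, hS⟩ := hWord Γ L hp hc hF
  obtain ⟨U, hU⟩ : ∃ U : Ultrafilter ℕ, (U : Filter ℕ) ≤ atTop := Ultrafilter.exists_le atTop
  obtain ⟨l, hl, W, _, _, _, _, π, c, B, hD, h0⟩ := hLim Γ L hp hse hc hinf C c0 P w D hS U hU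
  obtain ⟨hdim, D0, hD0⟩ := stmt1 hD
  have hk : ∀ g, L.ℓ g = 0 → c (cst hS hU g) = 0 := by
    intro g hg
    refine h0 _ (Nat.le_zero.1 ((hl _ 0).2 (Eventually.of_forall fun n => ?_)))
    exact (((hS.len n).ker g).2 hg).le
  rcases hIso Γ L hp hc W (π.comp (cst hS hU)) (fun g => c (cst hS hU g))
    (fun g h => by rw [map_mul, hD.c_mul]; rfl) hk hdim with
    ⟨H, hH, f, hf, hfK, hne⟩ | ⟨H, hH, hker⟩
  · exact hE Γ L hp hse hc hFlat H hH f hf hfK hne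
  · have hsq : ∀ h ∈ H, Short U D (h ^ 2) := by
      intro h hh
      refine ⟨D0, fun R => ?_⟩
      by_contra hcon
      rw [Ultrafilter.eventually_not.symm] at hcon
      have hch : ∀ n, ∃ x : Γ, ((D n).ℓ x ≤ R ∧ D0 < (D n).ℓ (x⁻¹ * h ^ 2 * x)) ∨
          (∀ y : Γ, (D n).ℓ y ≤ R → (D n).ℓ (y⁻¹ * h ^ 2 * y) ≤ D0) ∧ x = 1 := by
        intro n
        by_cases hn : ∀ y : Γ, (D n).ℓ y ≤ R → (D n).ℓ (y⁻¹ * h ^ 2 * y) ≤ D0
        · exact ⟨1, Or.inr ⟨hn, rfl⟩⟩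
        · push Not at hn
          obtain ⟨y, h1, h2⟩ := hn
          exact ⟨y, Or.inl ⟨h1, h2⟩⟩
      choose x hx using hch
      have hxR : ∀ n, (D n).ℓ (x n) ≤ R := by
        intro n
        rcases hx n with h1 | ⟨-, h1⟩
        · exact h1.1
        · rw [h1, (D n).one]; exact Nat.zero_le _
      let X : bdd U D := ⟨x, R, Eventually.of_forall hxR⟩
      have h1 := hD0 (cst hS hU h) (fun j => by
        rw [← map_zpow, hl]
        exact cst_len hS hU _) (hker h hh).1 (hker h hh).2 X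
      rw [hl] at h1
      obtain ⟨n, hn1, hn2⟩ := (h1.and hcon).exists
      rcases hx n with h2 | h2
      · exact absurd hn1 (not_le.2 h2.2)
      · exact hn2 h2.1
    obtain ⟨S, hS1, hS2⟩ := hGen Γ L hp hc H hH
    have hshort : ∀ s ∈ S, Short U D s := by
      intro s hs
      refine Short.closure ?_ s (hS1 s hs)
      rintro _ ⟨h, hh, rfl⟩
      exact hsq h hh
    obtain ⟨f, hf, hfK, hne⟩ := hLG Γ L hp hc hgeo hinf C c0 P w D hS U hU S hshort hS2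
    exact hE Γ L hp hse hc hFlat _ hS2 f hf hfK hne

end Vale.Agent.P151.RG
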